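import Vale.Agent.P073Z.ACC.Sk
import Vale.Agent.P073Z.EN.B
import Vale.Agent.P073Z.TOPO.Cov

/-!
# The energy of a fine cell
-/

open Set Metric Topology Filter MeasureTheory
open scoped ENNReal NNReal

namespace P073

namespace Bx

section Sums

variable {ι : Type} {s s' : Set ι} {f g : ι → ℝ≥0∞}

theorem ind_le {c : ℝ≥0∞} (h : ∀ i ∈ s, f i ≤ c) :
    ∑' i, s.indicator f i ≤ (s.encard : ℝ≥0∞) * c := by
  rw [← tsum_subtype, ← ENNReal.tsum_set_const]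
  exact ENNReal.tsum_le_tsum fun i => h i i.2

theorem ind_mono (hs : s ⊆ s') : ∑' i, s.indicator f i ≤ ∑' i, s'.indicator f i :=
  ENNReal.tsum_le_tsum (indicator_le_indicator_of_subset hs fun _ => zero_le)

theorem le_ind {i : ι} (hi : i ∈ s) : f i ≤ ∑' i, s.indicator f i :=
  (indicator_of_mem hi f).ge.trans (ENNReal.le_tsum i)

theorem ind_aff {a b : ℝ≥0∞} (h : ∀ i ∈ s, f i ≤ a + b * g i) :
    ∑' i, s.indicator f i ≤ (s.encard : ℝ≥0∞) * a + b * ∑' i, s.indicator g i := by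
  rw [← tsum_subtype, ← tsum_subtype, ← ENNReal.tsum_set_const, ← ENNReal.tsum_mul_left,
    ← ENNReal.tsum_add]
  exact ENNReal.tsum_le_tsum fun i => h i i.2

theorem ind_cover {κ : Type} (T : Finset κ) (r : κ → Set ι) (h : ∀ i ∈ s, ∃ k ∈ T, i ∈ r k) :
    ∑' i, s.indicator f i ≤ ∑ k ∈ T, ∑' i, (r k).indicator f i := by
  rw [← Summable.tsum_finsetSum fun _ _ => ENNReal.summable]
  refine ENNReal.tsum_le_tsum fun i => indicator_apply_le' (fun hi => ?_) fun _ => zero_le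
  obtain ⟨k, hk, h1⟩ := h i hi
  exact (indicator_of_mem h1 f).ge.trans
    (Finset.single_le_sum (f := fun k => (r k).indicator f i) (fun _ _ => zero_le) hk)

theorem ind_split (t : Set ι) : ∑' i, s.indicator f i ≤
    ∑' i, (s ∩ t).indicator f i + ∑' i, (s \ t).indicator f i := by
  rw [← ENNReal.tsum_add]
  refine ENNReal.tsum_le_tsum fun i => indicator_apply_le' (fun hi => ?_) fun _ => zero_le
  by_cases h : i ∈ t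
  · exact (indicator_of_mem (show i ∈ s ∩ t from ⟨hi, h⟩) f).ge.trans le_self_add
  · exact (indicator_of_mem (show i ∈ s \ t from ⟨hi, h⟩) f).ge.trans le_add_self

end Sums

theorem enorm_le {a b : E3} {c : ℝ} (hc : 0 ≤ c) (h : ‖a‖ ≤ c * ‖b‖) :
    ‖a‖ₑ ≤ ENNReal.ofReal c * ‖b‖ₑ := by
  rw [← ofReal_norm, ← ofReal_norm, ← ENNReal.ofReal_mul hc]
  exact ENNReal.ofReal_le_ofReal h

theorem two_rpow {p : ℝ} (hp : p < 2) : (2 : ℝ≥0∞) ^ p ≤ 4 :=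
  (ENNReal.rpow_le_rpow_of_exponent_le one_le_two hp.le).trans_eq (by norm_num)

/-- the constants -/
noncomputable def cs (K M c : ℝ≥0) : ℕ → ℝ≥0
  | 0 => K
  | d + 1 => c * (4 * M) * cs K M c d + 1 + 4 * (2 * M + 1) ^ 3

variable {Ω : Set E3} {P : Par} {M₀ : ℝ≥0} {Mt : Ty → ℕ → ℝ≥0} {S : Ty → ℕ → Set E3}

/-- the first weight -/
noncomputable abbrev al (P : Par) (p : ℝ) (j : Fin P.N) : ℝ≥0∞ :=
  ENNReal.ofReal ((P.T j).b ^ 2 * P.a j) ^ p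

/-- the second weight -/
noncomputable abbrev be (P : Par) (p : ℝ) (j : Fin P.N) : ℝ≥0∞ :=
  ENNReal.ofReal ((P.T j).b * P.η) ^ (p - 1)

/-- the integral over an edge -/
noncomputable abbrev Ie (𝓜 : Mesh Ω P M₀ Mt S) (F : E3 → (E3 →L[ℝ] E3)) (p : ℝ) (j : Fin P.N)
    (e : 𝓜.Q.ι) : ℝ≥0∞ := ∫⁻ x in 𝓜.Q.cell e, ‖F x - (P.T j).A‖ₑ ^ p ∂(μH[1])

/-- the integral over the edges in a set -/
noncomputable abbrev II (𝓜 : Mesh Ω P M₀ Mt S) (F : E3 → (E3 →L[ℝ] E3)) (p : ℝ) (j : Fin P.N)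
    (X : Set E3) : ℝ≥0∞ :=
  ∑' e, {e | 𝓜.Q.dim e = 1 ∧ 𝓜.Q.cell e ⊆ X}.indicator (fun e => Ie 𝓜 F p j e) e

variable {𝓜 : Mesh Ω P M₀ Mt S} {G : Set 𝓜.Q.ι} {F : E3 → (E3 →L[ℝ] E3)} {h : E3 → E3} {p : ℝ}
  {K₃ : ℝ≥0} {C : ℝ≥0 → ℝ≥0} {t : Fin P.N → ℝ} {θ : 𝓜.Q.ι → ℝ≥0∞} {j : Fin P.N} {i : 𝓜.Q.ι}

theorem sub_eq (hc : CubeApi Ω P) (j : Fin P.N) (x y : E3) :
    y - x = P.Lam j (P.nu j y - P.nu j x) := by
  rw [map_sub, ← add_sub_add_left_eq_sub (P.Lam j _) _ P.w, hc.lam_nu, hc.lam_nu]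

theorem A_le (hc : CubeApi Ω P) (j : Fin P.N) (x y : E3) :
    ‖(P.T j).A (y - x)‖ ≤ (P.T j).b ^ 2 * P.a j * ‖P.nu j y - P.nu j x‖ := by
  rw [sub_eq hc j]
  exact (P.B j).le_of_opNorm_le (hc.B_le j) _

theorem wire' (hc : CubeApi Ω P) (ho : Out 𝓜 G F h p K₃ C t θ) (hp : 1 ≤ p) {x y : E3}
    (he : 𝓜.Q.dim i = 1) (hs : 𝓜.Q.cell i = segment ℝ x y) {u : ℝ≥0∞} (u0 : u ≠ 0) (u1 : u ≠ ⊤)
    (hu : edist (P.nu j x) (P.nu j y) = u) :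
    En 1 p (h ∘ (𝓜.ν j).symm) (𝓜.ν j '' 𝓜.Q.cell i) ≤
      K₃ * (al P p j * u + be P p j * (Ie 𝓜 F p j i + θ i)) := by
  have a0 := (hc.a_pos j).le
  have e0 := hc.eta_pos.le
  have p0 : 0 ≤ p := zero_le_one.trans hp
  have p1 : 0 ≤ p - 1 := sub_nonneg.2 hp
  refine (ho.wire i x y he hs (𝓜.ν j) (P.T j).A).trans ?_
  rw [𝓜.ν_eq, 𝓜.ν_eq, hu, mul_assoc]
  rw [edist_comm, edist_eq_enorm_sub] at hu
  have h1 := enorm_le (by positivity) (A_le hc j x y)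
  have h2 := enorm_le (by positivity) (hc.lam_le j (P.nu j y - P.nu j x))
  rw [← sub_eq hc j, ← edist_eq_enorm_sub, edist_comm] at h2
  rw [hu] at h1 h2
  have h3 : u ^ (1 - p) * u ^ p = u := by
    rw [← ENNReal.rpow_add _ _ u0 u1, sub_add_cancel, ENNReal.rpow_one]
  have h4 : u ^ (1 - p) * u ^ (p - 1) = 1 := by
    rw [← ENNReal.rpow_add _ _ u0 u1, sub_add_sub_cancel, sub_self, ENNReal.rpow_zero]
  gcongr
  calc _ ≤ u ^ (1 - p) * ((ENNReal.ofReal ((P.T j).b ^ 2 * P.a j) * u) ^ p +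
        (ENNReal.ofReal ((P.T j).b * P.η) * u) ^ (p - 1) * (Ie 𝓜 F p j i + θ i)) := by gcongr
    _ = al P p j * (u ^ (1 - p) * u ^ p) +
        be P p j * (u ^ (1 - p) * u ^ (p - 1)) * (Ie 𝓜 F p j i + θ i) := by
      rw [ENNReal.mul_rpow_of_nonneg _ _ p0, ENNReal.mul_rpow_of_nonneg _ _ p1]
      ring
    _ = _ := by rw [h3, h4, mul_one]

theorem meas_img (μ : E3 ≃ᴬ[ℝ] E3) {X : Set E3} (hX : IsCompact X) : MeasurableSet (μ '' X) :=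
  (hX.image μ.continuous).measurableSet

theorem meas_le (hl : CellApi 𝓜) (hi : 𝓜.Q.cell i ⊆ P.Fine j) (hd : 1 ≤ 𝓜.Q.dim i) :
    μH[(𝓜.Q.dim i : ℝ)] (𝓜.ν j '' 𝓜.Q.cell i) ≤
      (2 * M₀ + 1) ^ 3 * (P.n : ℝ≥0∞)⁻¹ ^ 𝓜.Q.dim i := by
  rw [show (𝓜.ν j : E3 → E3) = P.nu j from funext (𝓜.ν_eq j)]
  refine (hl.fine_meas j i hi hd).trans ?_
  rw [mul_pow]
  gcongr
  · exact le_add_self
  · exact TP.dim_le_three 𝓜.cvx i

theorem lip_en (hl : CellApi 𝓜) (hp : 0 < p) (hi : 𝓜.Q.cell i ⊆ P.Fine j) (hd : 1 ≤ 𝓜.Q.dim i)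
    {k : E3 → E3} {L : ℝ} (hk : ∀ x ∈ 𝓜.Q.cell i, ∀ y ∈ 𝓜.Q.cell i,
      ‖k (𝓜.ν j y) - k (𝓜.ν j x)‖ ≤ L * ‖P.nu j y - P.nu j x‖) :
    En (𝓜.Q.dim i) p k (𝓜.ν j '' 𝓜.Q.cell i) ≤
      (2 * M₀ + 1) ^ 3 * ENNReal.ofReal L ^ p * (P.n : ℝ≥0∞)⁻¹ ^ 𝓜.Q.dim i := by
  refine (EN.en_le_of_lip (K := L.toNNReal) hp (meas_img _ (𝓜.Q.isCompact_cell i))
    (LipschitzOnWith.of_dist_le_mul ?_)).trans ?_
  · rintro _ ⟨y, hy, rfl⟩ _ ⟨x, hx, rfl⟩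
    rw [dist_eq_norm, dist_eq_norm]
    refine (hk x hx y hy).trans ?_
    rw [𝓜.ν_eq, 𝓜.ν_eq]
    gcongr
    exact Real.le_coe_toNNReal L
  · rw [mul_comm (_ ^ 3), mul_assoc]
    exact mul_le_mul_right (meas_le hl hi hd) _

theorem good' (hc : CubeApi Ω P) (ho : Out 𝓜 G F h p K₃ C t θ) (hG : i ∈ G)
    (hi : 𝓜.Q.cell i ⊆ P.BufSet j) : 𝓜.Q.cell i ⊆ P.Fine j ∧ ∀ x ∈ 𝓜.Q.cell i, ∀ y ∈ 𝓜.Q.cell i,
      ‖h y - h x - (P.T j).A (y - x)‖ ≤ t j * ‖y - x‖ := by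
  obtain ⟨j', h1, h2⟩ := ho.good i hG
  obtain ⟨x, hx⟩ := 𝓜.Q.cell_nonempty i
  obtain rfl : j' = j := by
    by_contra k
    exact disjoint_left.1 (hc.U_disj _ _ k) (hc.buf_U _ (hc.fine_buf _ (h1 hx))) (hc.buf_U _ (hi hx))
  exact ⟨h1, h2⟩

theorem good_le (hc : CubeApi Ω P) (hl : CellApi 𝓜) (ho : Out 𝓜 G F h p K₃ C t θ) (hG : i ∈ G)
    (hi : 𝓜.Q.cell i ⊆ P.Fine j) {x y : E3} (hx : x ∈ 𝓜.Q.cell i) (hy : y ∈ 𝓜.Q.cell i) :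
    ‖h y - h x - (P.T j).A (y - x)‖ ≤ t j * (P.T j).b * P.a j * ‖P.nu j y - P.nu j x‖ := by
  refine ((good' hc ho hG (hi.trans (hc.fine_buf j))).2 x hx y hy).trans ?_
  rw [mul_assoc, mul_assoc, ← mul_assoc ((P.T j).b : ℝ)]
  exact mul_le_mul_of_nonneg_left (hl.fine_flat j i hi x hx y hy).2 (ho.t_mem j).1

theorem good_en (hc : CubeApi Ω P) (hl : CellApi 𝓜) (ho : Out 𝓜 G F h p K₃ C t θ) (hp : 0 < p)
    (hG : i ∈ G) (hi : 𝓜.Q.cell i ⊆ P.Fine j) (hd : 1 ≤ 𝓜.Q.dim i) :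
    En (𝓜.Q.dim i) p (fun ξ => (h ∘ (𝓜.ν j).symm) ξ - P.B j ξ) (𝓜.ν j '' 𝓜.Q.cell i) ≤
      (2 * M₀ + 1) ^ 3 * ENNReal.ofReal (t j * (P.T j).b * P.a j) ^ p *
        (P.n : ℝ≥0∞)⁻¹ ^ 𝓜.Q.dim i := by
  refine lip_en hl hp hi hd fun x hx y hy => Eq.trans_le ?_ (good_le hc hl ho hG hi hx hy)
  simp only [Function.comp, ContinuousAffineEquiv.symm_apply_apply]
  rw [sub_eq hc j x y, 𝓜.ν_eq, 𝓜.ν_eq, sub_sub_sub_comm, ← map_sub]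
  rfl

theorem good_en' (hc : CubeApi Ω P) (hl : CellApi 𝓜) (ho : Out 𝓜 G F h p K₃ C t θ) (hp : 0 < p)
    (hp2 : p < 2) (hG : i ∈ G) (hi : 𝓜.Q.cell i ⊆ P.Fine j) (hd : 1 ≤ 𝓜.Q.dim i) :
    En (𝓜.Q.dim i) p (h ∘ (𝓜.ν j).symm) (𝓜.ν j '' 𝓜.Q.cell i) ≤
      4 * (2 * M₀ + 1) ^ 3 * (al P p j * (P.n : ℝ≥0∞)⁻¹ ^ 𝓜.Q.dim i) := by
  have a0 := (hc.a_pos j).le
  refine (lip_en (L := 2 * ((P.T j).b ^ 2 * P.a j)) hl hp hi hd fun x hx y hy => ?_).trans ?_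
  · simp only [Function.comp, ContinuousAffineEquiv.symm_apply_apply]
    have h1 := good_le hc hl ho hG hi hx hy
    have h2 := A_le hc j x y
    have h3 := norm_le_norm_sub_add (h y - h x) ((P.T j).A (y - x))
    have h4 : (1:ℝ) ≤ (P.T j).b := by exact_mod_cast (P.T j).b_pos
    have h5 : t j * (P.T j).b ≤ (P.T j).b ^ 2 := by nlinarith [(ho.t_mem j).2]
    have h6 : t j * (P.T j).b * P.a j * ‖P.nu j y - P.nu j x‖ ≤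
      (P.T j).b ^ 2 * P.a j * ‖P.nu j y - P.nu j x‖ := by gcongr
    linarith
  · rw [ENNReal.ofReal_mul zero_le_two, ENNReal.mul_rpow_of_nonneg _ _ hp.le, ENNReal.ofReal_ofNat]
    calc _ = 2 ^ p * (2 * M₀ + 1) ^ 3 * (al P p j * (P.n : ℝ≥0∞)⁻¹ ^ 𝓜.Q.dim i) := by ring
      _ ≤ _ := by gcongr; exact two_rpow hp2

theorem bad_en (hS : SCALE) (hc : CubeApi Ω P) (hP : P.Ok Ω) (ho : Out 𝓜 G F h p K₃ C t θ)
    (hp : 0 < p) (hp2 : p < 2) (hG : i ∉ G) (hi : 𝓜.Q.cell i ⊆ P.Fine j) {d : ℕ}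
    (hd : 𝓜.Q.dim i = d + 1 + 1) :
    En (d + 1 + 1) p (h ∘ (𝓜.ν j).symm) (𝓜.ν j '' 𝓜.Q.cell i) ≤ C M₀ * (P.n : ℝ≥0∞)⁻¹ *
      En (d + 1) p (h ∘ (𝓜.ν j).symm) (𝓜.ν j '' 𝓜.Q.bd i) + θ i := by
  obtain ⟨h1, h2, -⟩ := 𝓜.buf_chart i j (hi.trans (hc.fine_buf j))
  have h3 := ho.ext i hG (by omega)
  rw [hd, h1, Nat.add_sub_cancel] at h3
  have n0 : (P.n : ℝ≥0) ≠ 0 := by exact_mod_cast (Nat.one_le_iff_ne_zero.1 hP.n_pos)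
  have n1 : (P.n : ℝ) ≠ 0 := by exact_mod_cast n0
  have n2 : (1 : ℝ≥0∞) ≤ P.n := by exact_mod_cast hP.n_pos
  have n3 : (P.n : ℝ≥0∞) * (P.n : ℝ≥0∞)⁻¹ = 1 :=
    ENNReal.mul_inv_cancel (zero_lt_one.trans_le n2).ne' (ENNReal.natCast_ne_top _)
  have e1 : ∀ ξ, 𝓜.nm i ((𝓜.ν j).symm ξ) = (P.n : ℝ) • ξ := fun ξ => by
    rw [h2 hi, ← 𝓜.ν_eq, ContinuousAffineEquiv.apply_symm_apply]
  have e2 : ∀ ξ, 𝓜.ν j ((𝓜.nm i).symm ξ) = (P.n : ℝ)⁻¹ • ξ := fun ξ => by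
    rw [eq_inv_smul_iff₀ n1, 𝓜.ν_eq, ← h2 hi, ContinuousAffineEquiv.apply_symm_apply]
  refine (hS (𝓜.ν j) (𝓜.nm i) (K := P.n) (L := (P.n : ℝ≥0)⁻¹) hp (𝓜.Q.isCompact_cell i)
    (𝓜.Q.isCompact_bd i) (LipschitzWith.of_dist_le_mul fun a b => ?_)
    (LipschitzWith.of_dist_le_mul fun a b => ?_) h3).trans ?_
  · simp [e1, dist_smul₀]
  · simp [e2, dist_smul₀]
  · rw [ENNReal.coe_inv n0, ENNReal.coe_natCast, n3, ENNReal.one_rpow, one_pow, mul_one, mul_one]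
    refine add_le_add_right (mul_le_of_le_one_left zero_le ?_) _
    calc _ ≤ (P.n : ℝ≥0∞) ^ (2:ℝ) * (P.n : ℝ≥0∞)⁻¹ ^ 2 := mul_le_mul'
          (ENNReal.rpow_le_rpow_of_exponent_le n2 hp2.le)
          (pow_le_pow_of_le_one zero_le (ENNReal.inv_le_one.2 n2) (by omega))
      _ = 1 := by rw [ENNReal.rpow_two, ← mul_pow, n3, one_pow]

theorem fine_en (hS : SCALE) (hE : ENA) (hc : CubeApi Ω P) (hl : CellApi 𝓜) (hP : P.Ok Ω)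
    (ho : Out 𝓜 G F h p K₃ C t θ) (hp : 1 ≤ p) (hp2 : p < 2) (d : ℕ) :
    ∀ i, 𝓜.Q.cell i ⊆ P.Fine j → 𝓜.Q.dim i = d + 1 →
      En (d + 1) p (h ∘ (𝓜.ν j).symm) (𝓜.ν j '' 𝓜.Q.cell i) ≤ cs K₃ M₀ (C M₀) d *
        (al P p j * (P.n : ℝ≥0∞)⁻¹ ^ (d + 1) + be P p j * (P.n : ℝ≥0∞)⁻¹ ^ d *
          II 𝓜 F p j (𝓜.Q.cell i) + (1 + be P p j) * ∑' l, θ l) := by
  have n2 : (1 : ℝ≥0∞) ≤ P.n := by exact_mod_cast hP.n_pos
  have p0 : 0 < p := zero_lt_one.trans_le hp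
  induction d with
  | zero =>
    intro i hi hd
    obtain ⟨x, y, -, -, -, hs, -⟩ := 𝓜.cvx.exists_segment hd
    refine (wire' hc ho hp hd hs (ENNReal.inv_ne_zero.2 (ENNReal.natCast_ne_top _))
      (ENNReal.inv_ne_top.2 (zero_lt_one.trans_le n2).ne')
      ((hl.edge_len j i x y hd hs (hi.trans (hc.fine_buf j))).1 hi)).trans ?_
    rw [cs, zero_add, pow_one, pow_zero, mul_one, mul_add (be P p j), add_assoc]
    gcongr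
    · exact le_ind (s := {e | 𝓜.Q.dim e = 1 ∧ 𝓜.Q.cell e ⊆ 𝓜.Q.cell i})
        (f := fun e => Ie 𝓜 F p j e) ⟨hd, Subset.rfl⟩
    · exact le_add_self
    · exact ENNReal.le_tsum i
  | succ d ih =>
    intro i hi hd
    rw [cs]
    push_cast
    by_cases hG : i ∈ G
    · have h1 := good_en' hc hl ho p0 hp2 hG hi (by omega)
      rw [hd] at h1
      exact h1.trans (mul_le_mul' le_add_self (le_self_add.trans le_self_add))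
    · refine (bad_en hS hc hP ho p0 hp2 hG hi hd).trans ?_
      have h1 := (hE.1 𝓜.Q (𝓜.ν j) (d + 1) (h ∘ (𝓜.ν j).symm) p0 (𝓜.Q.sub_bd i)
        (𝓜.Q.isCompact_bd i) fun l hl => by have := 𝓜.Q.dim_lt hl; omega).trans
        (ind_le (c := cs K₃ M₀ (C M₀) d * (al P p j * (P.n : ℝ≥0∞)⁻¹ ^ (d + 1) + be P p j *
          (P.n : ℝ≥0∞)⁻¹ ^ d * II 𝓜 F p j (𝓜.Q.cell i) + (1 + be P p j) * ∑' l, θ l))
          fun l hl => (ih l ((hl.1.trans (𝓜.Q.bd_subset i)).trans hi) hl.2).trans (by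
            gcongr
            exact ind_mono fun e he => ⟨he.1, he.2.trans (hl.1.trans (𝓜.Q.bd_subset i))⟩))
      have h2 : ({l | 𝓜.Q.cell l ⊆ 𝓜.Q.bd i ∧ 𝓜.Q.dim l = d + 1}.encard : ℝ≥0∞) ≤ 4 * M₀ :=
        le_trans (ENat.toENNReal_le.2 (encard_le_encard fun l hl =>
          hl.1.trans (𝓜.Q.bd_subset i))) (hl.fine_faces j i hi)
      have h3 : (P.n : ℝ≥0∞)⁻¹ ≤ 1 := ENNReal.inv_le_one.2 n2
      have h4 : θ i ≤ (1 + be P p j) * ∑' l, θ l :=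
        (ENNReal.le_tsum i).trans (le_mul_of_one_le_left zero_le le_self_add)
      generalize En (d + 1) p (h ∘ (𝓜.ν j).symm) (𝓜.ν j '' 𝓜.Q.bd i) = e at h1
      generalize ((1 + be P p j) * ∑' l, θ l) = T at h1 h4
      generalize II 𝓜 F p j (𝓜.Q.cell i) = I at h1
      generalize (P.n : ℝ≥0∞)⁻¹ = u at h1 h3
      generalize (cs K₃ M₀ (C M₀) d : ℝ≥0∞) = c at h1
      calc _ ≤ C M₀ * u * (4 * M₀ * (c * (al P p j * u ^ (d + 1) + be P p j * u ^ d * I + T))) +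
            T := by gcongr; exact h1.trans (by gcongr)
        _ = C M₀ * (4 * M₀) * c * (al P p j * u ^ (d + 1 + 1) + be P p j * u ^ (d + 1) * I +
            u * T) + 1 * T := by ring
        _ ≤ C M₀ * (4 * M₀) * c * (al P p j * u ^ (d + 1 + 1) + be P p j * u ^ (d + 1) * I +
            1 * T) + 1 * (al P p j * u ^ (d + 1 + 1) + be P p j * u ^ (d + 1) * I + T) := by
          gcongr
          exact le_add_self
        _ ≤ _ := by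
          rw [one_mul T, ← add_mul]
          exact mul_le_mul_left le_self_add _

end Bx

open Bx in
theorem fcell_of (h1 : CUBE) (h2 : CELL) (hS : SCALE) (hE : ENA) : FCELL := by
  intro p hp hp2 K₃ M₀ C
  refine ⟨∑ d ∈ Finset.range 3, cs K₃ M₀ (C M₀) d + (2 * M₀ + 1) ^ 3, ?_⟩
  intro Ω P Mt S 𝓜 G F h t θ hΩ hP ho j i hi hd
  have hc := h1 P hΩ hP
  have hl := h2 𝓜 hΩ hP
  refine ⟨?_, fun hG => (good_en hc hl ho (zero_lt_one.trans_le hp) hG hi hd).trans ?_⟩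
  · obtain ⟨d, e⟩ : ∃ d, 𝓜.Q.dim i = d + 1 := ⟨𝓜.Q.dim i - 1, by omega⟩
    have h3 := TP.dim_le_three 𝓜.cvx i
    rw [e, Nat.add_sub_cancel]
    refine (fine_en hS hE hc hl hP ho hp hp2 d i hi e).trans (mul_le_mul_left ?_ _)
    exact ENNReal.coe_le_coe.2 ((Finset.single_le_sum (f := cs K₃ M₀ (C M₀))
      (fun _ _ => zero_le) (Finset.mem_range.2 (by omega))).trans le_self_add)
  · push_cast
    gcongr
    exact le_add_self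

end P073
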